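import Vale.Agent.P099.H184.PT.Maps

/-! # P099: a triangle is a polygonal table with three walls. -/

namespace Vale.Agent.P099.H366

open MeasureTheory Set Filter Topology Vale.Agent.P099 Vale.Agent.P099T

theorem frontier_table (T : Triangle) :
    frontier T.table = ⋃ i : Fin 3, segment ℝ (T.P (i + 1)) (T.P (i + 2)) := by
  have htop : affineSpan ℝ (range T.P) = ⊤ := by
    rw [T.indep.affineSpan_eq_top_iff_card_eq_finrank_add_one, Complex.finrank_real_complex,
      Fintype.card_fin]
  let b : AffineBasis (Fin 3) ℝ ℂ := ⟨T.P, T.indep, htop⟩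
  have hb : ∀ i, b i = T.P i := fun i => rfl
  set K : Set ℂ := convexHull ℝ (range T.P) with hK
  have hKc : IsClosed K := (finite_range T.P).isClosed_convexHull ℝ
  have hKi : K = {x | ∀ i, 0 ≤ b.coord i x} := b.convexHull_eq_nonneg_coord
  have hint : interior K = {x | ∀ i, 0 < b.coord i x} := b.interior_convexHull
  have hne : (interior K).Nonempty := interior_convexHull_nonempty_iff_affineSpan_eq_top.2 htop
  have hfr : frontier T.table = K \ interior K := by
    unfold Triangle.table
    rw [frontier, (convex_convexHull ℝ (range T.P)).closure_interior_eq_closure_of_nonempty_interior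
      hne, interior_interior, hKc.closure_eq]
  have key : ∀ x : ℂ, ∀ i : Fin 3, b.coord i x = 0 →
      b.coord (i + 1) x + b.coord (i + 2) x = 1 ∧
        b.coord (i + 1) x • T.P (i + 1) + b.coord (i + 2) x • T.P (i + 2) = x := by
    intro x i hi
    have h1 : ∑ j, b.coord j x = 1 := b.sum_coord_apply_eq_one x
    have h2 : ∑ j, b.coord j x • b j = x := b.linear_combination_coord_eq_self x
    rw [Fin.sum_univ_three] at h1 h2
    simp only [hb] at h2
    match i with
    | 0 =>
      rw [hi, zero_add] at h1
      rw [hi, zero_smul, zero_add] at h2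
      exact ⟨h1, h2⟩
    | 1 =>
      rw [hi, add_zero, add_comm] at h1
      rw [hi, zero_smul, add_zero, add_comm] at h2
      exact ⟨h1, h2⟩
    | 2 =>
      rw [hi, add_zero] at h1
      rw [hi, zero_smul, add_zero] at h2
      exact ⟨h1, h2⟩
  rw [hfr]
  ext x
  simp only [mem_sdiff, mem_iUnion]
  constructor
  · rintro ⟨hx, hx'⟩
    rw [hKi] at hx
    rw [hint] at hx'
    have hx1 : ∀ i, 0 ≤ b.coord i x := hx
    have hx2 : ¬ ∀ i, 0 < b.coord i x := hx'
    push Not at hx2
    obtain ⟨i, hi⟩ := hx2
    obtain ⟨h1, h2⟩ := key x i (le_antisymm hi (hx1 i))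
    exact ⟨i, b.coord (i + 1) x, b.coord (i + 2) x, hx1 _, hx1 _, h1, h2⟩
  · rintro ⟨i, hi⟩
    refine ⟨?_, ?_⟩
    · exact (convex_convexHull ℝ (range T.P)).segment_subset
        (subset_convexHull ℝ _ (mem_range_self _)) (subset_convexHull ℝ _ (mem_range_self _)) hi
    · rw [hint]
      intro hx
      have hx1 : 0 < b.coord i x := hx i
      obtain ⟨a, c, ha, hc, hac, rfl⟩ := hi
      have h3 : b.coord i (a • T.P (i + 1) + c • T.P (i + 2)) =
          a • b.coord i (T.P (i + 1)) + c • b.coord i (T.P (i + 2)) :=
        Convex.combo_affine_apply hac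
      have n1 : i ≠ i + 1 := by fin_cases i <;> decide
      have n2 : i ≠ i + 2 := by fin_cases i <;> decide
      have h4 : b.coord i (T.P (i + 1)) = 0 := b.coord_apply_ne n1
      have h5 : b.coord i (T.P (i + 2)) = 0 := b.coord_apply_ne n2
      rw [h3, h4, h5] at hx1
      simp at hx1

/-- ROW TR: a triangle is a polygonal table with three walls. -/
theorem exists_table (T : Triangle) : ∃ S : PolygonalTable 3, S.Q = T.table ∧
    (∀ i, S.a i = T.P (i + 1)) ∧ ∀ i, S.b i = T.P (i + 2) := by
  have htop : affineSpan ℝ (range T.P) = ⊤ := by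
    rw [T.indep.affineSpan_eq_top_iff_card_eq_finrank_add_one, Complex.finrank_real_complex,
      Fintype.card_fin]
  have hne : T.table.Nonempty := interior_convexHull_nonempty_iff_affineSpan_eq_top.2 htop
  refine ⟨{ Q := T.table
            isOpen := isOpen_interior
            isConnected := ⟨hne, (convex_convexHull ℝ _).interior.isPreconnected⟩
            isBounded := (isBounded_convexHull.2 (finite_range T.P).isBounded).subset
              interior_subset
            a := fun i => T.P (i + 1)
            b := fun i => T.P (i + 2)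
            ne := fun i h => ?_
            frontier_eq := frontier_table T }, rfl, fun _ => rfl, fun _ => rfl⟩
  have := T.indep.injective h
  revert this
  fin_cases i <;> decide

end Vale.Agent.P099.H366
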