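import Vale.Agent.P099.H184.PT.Maps

/-! # P099: a triangle as a polygonal table, consequences. -/

namespace Vale.Agent.P099.H366

open MeasureTheory Set Filter Topology Vale.Agent.P099 Vale.Agent.P099T

/-- ROW TR2: consequences (`mu`, billiard flows, irrationality). -/
theorem table_transfer (T : Triangle) {S : PolygonalTable 3} (hQ : S.Q = T.table)
    (ha : ∀ i, S.a i = T.P (i + 1)) (hb : ∀ i, S.b i = T.P (i + 2)) :
    S.mu = T.mu ∧ (∀ Φ : ℝ → ℂ × ℂ → ℂ × ℂ, S.IsBilliardFlow Φ ↔ T.IsBilliardFlow Φ) ∧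
      (T.IsIrrational → S.IsIrrational) := by
  have hmu : S.mu = T.mu := by
    unfold PolygonalTable.mu Triangle.mu
    rw [hQ]
  have hside : ∀ i, S.side i = T.side i := by
    intro i
    unfold PolygonalTable.side Triangle.side
    rw [ha, hb]
  have hrefl : ∀ i u, S.refl i u = T.refl i u := by
    intro i u
    have key : ∀ v w : ℂ, v = w → (Submodule.span ℝ {v}).reflection u =
        (Submodule.span ℝ {w}).reflection u := by
      rintro v _ rfl
      rfl
    exact key _ _ (by rw [ha, hb])
  refine ⟨hmu, fun Φ => ?_, ?_⟩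
  · unfold PolygonalTable.IsBilliardFlow Triangle.IsBilliardFlow
    rw [hmu]
    unfold PolygonalTable.IsTrajectory Triangle.IsTrajectory
    simp only [hQ, hside, hrefl]
  · rintro ⟨i, hi⟩
    refine ⟨i + 2, i + 1, ?_⟩
    have e1 : S.b (i + 2) - S.a (i + 2) = T.P (i + 1) - T.P i := by
      rw [ha, hb]
      congr 2 <;> (fin_cases i <;> decide)
    have e2 : S.b (i + 1) - S.a (i + 1) = -(T.P (i + 2) - T.P i) := by
      rw [ha, hb, neg_sub]
      congr 2 <;> (fin_cases i <;> decide)
    rw [e1, e2, InnerProductGeometry.angle_neg_right]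
    have e3 : (Real.pi - InnerProductGeometry.angle (T.P (i + 1) - T.P i) (T.P (i + 2) - T.P i)) /
        Real.pi = ((1 : ℚ) : ℝ) - EuclideanGeometry.angle (T.P (i + 1)) (T.P i) (T.P (i + 2)) /
          Real.pi := by
      have hpi := Real.pi_ne_zero
      have e4 : EuclideanGeometry.angle (T.P (i + 1)) (T.P i) (T.P (i + 2)) =
          InnerProductGeometry.angle (T.P (i + 1) - T.P i) (T.P (i + 2) - T.P i) := rfl
      rw [e4]
      push_cast
      field_simp
    rw [e3]
    exact hi.ratCast_sub 1

end Vale.Agent.P099.H366
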